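import Vale.Agent.P215Z.Reg.Crit.Edge
import Vale.Agent.P215Z.Reg.Sheet

/-!
# P215, R4: the current on the walls inside the region
-/

noncomputable section
namespace Vale.Agent.P215Z.Cr
open MvPolynomial Classical

variable {O : Type} [CommRing O] [Algebra ℚ O]

omit [Algebra ℚ O] in
theorem loc {k l ν : Fin 4} (hkl : k ≠ l) {α β x y o : ℤ} (ho : o = 1 ∨ o = -1)
    (hxy : ((x = 1 ∨ x = -1) ∧ y = 0) ∨ (x = 0 ∧ (y = 1 ∨ y = -1))) {σ θ : Pt}
    (hθ : θ = σ + (x * α) • ee k + (y * β) • ee l)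
    (hν : ((-y * α) • ee k + (x * β) • ee l : Pt) ν = -o) (i j : Fin 4) (ξ : MM O) :
    ∑ d, (o * (θ d - σ d) * eps4 ν d i j) • ((hat θ σ d : RR O) • ξ) =
      (α * β * eps4 i j k l) • (hat θ σ k * hat θ σ l : RR O) • ξ := by
  have hd : ∀ d, θ d - σ d = x * α * ee k d + y * β * ee l d := fun d => by
    rw [hθ]; simp only [Pi.add_apply, Pi.smul_apply, smul_eq_mul]; ring
  simp only [Pi.add_apply, Pi.smul_apply, smul_eq_mul] at hν
  rcases hxy with ⟨hx, rfl⟩ | ⟨rfl, hy⟩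
  · obtain rfl : ν = l := by
      by_contra hc
      rw [ee_ne hc] at hν; omega
    rw [ee_same] at hν
    rw [Finset.sum_eq_single k (fun d _ h => by rw [hd, ee_ne h]; simp) (by simp), hd, ee_same,
      hat_same (τ := θ) (σ := σ) (m := ν) (by have := hd ν; rw [ee_ne hkl.symm] at this; omega),
      mul_one (hat θ σ k), eps4_b]
    congr 1
    obtain rfl : o = -(x * β) := by omega
    rcases hx with rfl | rfl <;> ring
  · obtain rfl : ν = k := by
      by_contra hc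
      rw [ee_ne hc] at hν; omega
    rw [ee_same] at hν
    rw [Finset.sum_eq_single l (fun d _ h => by rw [hd, ee_ne h]; simp) (by simp), hd, ee_same,
      hat_same (τ := θ) (σ := σ) (m := ν) (by have := hd ν; rw [ee_ne hkl] at this; omega),
      one_mul (hat θ σ l), eps4_a i j ν l]
    congr 1
    obtain rfl : o = y * α := by linarith
    rcases hy with rfl | rfl <;> ring

theorem gadj_xy {Q m : Gp} (h : GAdj (ctr Q) m) :
    ((m.1 - (ctr Q).1 = 1 ∨ m.1 - (ctr Q).1 = -1) ∧ m.2 - (ctr Q).2 = 0) ∨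
      (m.1 - (ctr Q).1 = 0 ∧ (m.2 - (ctr Q).2 = 1 ∨ m.2 - (ctr Q).2 = -1)) := by
  rcases h with rfl | rfl | rfl | rfl <;> simp

theorem oQ_cases (τ : Pt) (d : Fin 4) : oQ τ d = 1 ∨ oQ τ d = -1 := by
  unfold oQ; split_ifs <;> simp

variable (s : Setup) (x : ∀ l : Lg, Option (s.L.C l.1) → M2 O) (A : F1 O)

/-- the transported letter along a curve -/
def xv (l : Lg) (c : s.L.C l.1) (k : ℕ) : MM O :=
  Ad (s.whR A c.1 l.2 * holN (s.UU A (s.shS c.1 l.2)) (s.cv.vx c.1) k) (cst (s.Xv x A l (some c)))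

def pF (l : Lg) (c : s.L.C l.1) (k : ℕ) : Pt := s.FF (s.shS c.1 l.2) (s.cv.vx c.1 k)

/-- the contribution of one step of a curve, in the coordinates of the region -/
def tm (l : Lg) (θ : Pt) (ν : Fin 4) (o : ℤ) (i j : Fin 4) (c : s.L.C l.1) (k : ℕ) : MM O :=
  ∑ d, (o * (pF s l c (k + 1) d - pF s l c k d) * eps4 ν d i j) •
    ((if pF s l c k = θ then (hat θ (pF s l c (k + 1)) d : RR O) • xv s x A l c k else 0) +
      (if pF s l c (k + 1) = θ then (hat θ (pF s l c k) d : RR O) • xv s x A l c (k + 1) else 0))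

/-- the item of a step of a curve -/
def ph (l : Lg) (b : Σ c : s.L.C l.1, Fin (s.cv.per c.1)) : s.cv.S × (sqs s.D.M) :=
  (s.shS b.1.1 l.2, ⟨sqOf (lf (s.cv.vx b.1.1 b.2) (s.cv.vx b.1.1 (b.2 + 1))),
    s.sqOf_mem (s.cv.ie b.1.1 b.2 b.2.2).2.1⟩)

def act (l : Lg) (θ : Pt) (b : Σ c : s.L.C l.1, Fin (s.cv.per c.1)) : Prop :=
  pF s l b.1 b.2 ≠ pF s l b.1 (b.2 + 1) ∧ (pF s l b.1 b.2 = θ ∨ pF s l b.1 (b.2 + 1) = θ)

omit [Algebra ℚ O] in
theorem tm_zero (l : Lg) (θ : Pt) (ν : Fin 4) (o : ℤ) (i j : Fin 4)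
    (b : Σ c : s.L.C l.1, Fin (s.cv.per c.1)) (h : ¬ act s l θ b) :
    tm s x A l θ ν o i j b.1 b.2 = 0 := by
  refine Finset.sum_eq_zero fun d _ => ?_
  by_cases h1 : pF s l b.1 b.2 = pF s l b.1 (b.2 + 1)
  · rw [h1, sub_self, mul_zero, zero_mul, zero_smul]
  · rw [if_neg fun e => h ⟨h1, Or.inl e⟩, if_neg fun e => h ⟨h1, Or.inr e⟩, add_zero, smul_zero]

theorem ph_inj (l : Lg) {θ : Pt} {ν : Fin 4} (hθ : ∀ j, j ≠ ν → Odd (θ j))
    (b b' : Σ c : s.L.C l.1, Fin (s.cv.per c.1)) (h : act s l θ b) (h' : act s l θ b')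
    (e : ph s l b = ph s l b') : b = b' := by
  obtain ⟨⟨c, hc⟩, k, hk⟩ := b
  obtain ⟨⟨c', hc'⟩, k', hk'⟩ := b'
  obtain ⟨Q, m, a1, a2, a3, a4, a5, -, a7, -⟩ := act_data s c hk l.2 hθ h.1 h.2
  obtain ⟨Q', m', b1, -, b3, -, b5, -, b7, -⟩ := act_data s c' hk' l.2 hθ h'.1 h'.2
  have e1 : s.shS c l.2 = s.shS c' l.2 := congrArg Prod.fst e
  obtain rfl : Q = Q' := a3.symm.trans ((congrArg (fun y => y.2.1) e).trans b3)
  obtain rfl : m = m' := nd_inj (s.D.shape _ Q a2) a4 a1 b1 (a5.trans (e1 ▸ b5).symm)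
  have i1 := (s.cv.ie c k hk).2.2.2
  have i2 := (s.cv.ie c' k' hk').2.2.2
  have : s.cv.vx c k = s.cv.vx c' k' := by
    rcases a7 with ⟨u1, u2, -⟩ | ⟨u1, u2, -⟩ <;> rcases b7 with ⟨v1, v2, -⟩ | ⟨v1, v2, -⟩
    · exact u1.trans v1.symm
    · rw [u1, u2] at i1; rw [v1, v2] at i2
      exact absurd i2 (s.g.asym _ _ i1)
    · rw [u1, u2] at i1; rw [v1, v2] at i2
      exact absurd i2 (s.g.asym _ _ i1)
    · exact u1.trans v1.symm
  obtain ⟨rfl, rfl⟩ := s.cv.vx_inj c c' k k' hk hk' this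
  rfl

theorem ph_surj (l : Lg) {τ : Pt} {d : Fin 4} (h3 : Is3 s.n τ d) (hV : τ ∈ V0 l.1 s.n)
    (i j : Fin 4) (y : s.cv.S × (sqs s.D.M)) (h : (s.itR x A y).J A (dm s.D.N l τ) i j ≠ 0) :
    ∃ b, act s l (dm s.D.N l τ) b ∧ ph s l b = y := by
  have ho : (s.itR x A y).o ≠ 0 := fun e => h (by rw [Item.J_of_o A _ e]; rfl)
  have hs : (s.itR x A y).Star (dm s.D.N l τ) := by
    by_contra hc
    exact h (if_neg hc)
  have hn : s.Nondeg y.1 y.2.1 := by
    by_contra hc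
    exact ho (if_neg fun e => hc e.1)
  obtain ⟨f, r, hf, e1, e2, hr, he⟩ := s.star_face x A y ho hs (dm_V0 s.D.hN l hV)
  rw [← e1] at he
  rw [← e1, ← e2] at hn
  obtain ⟨c, k, hk, a1, a2, a3, a4, a5⟩ := exists_curve s l h3 hV hf hr hn he
  rw [← a2] at a4 a5
  exact ⟨⟨⟨c, a1⟩, k, hk⟩, ⟨a4, a5⟩, Prod.ext (a2.trans e1) (Subtype.ext (a3.trans e2))⟩

variable {x A} (m : Marked O Mk)
  (hx : ∀ l c, s.L.cown l c = true → InC (m.ii (s.L.cmark l c)) (x l c))
  {B : F1 O} (hp : s.Pair m.a A B) {b : Ideal O} (hs : In2 (KR s.D.N) b (curv A - s.JR x A))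
include hx hp hs

theorem ph_val (l : Lg) {τ : Pt} {d : Fin 4} (h3 : Is3 s.n τ d) (i j : Fin 4)
    (y : Σ c : s.L.C l.1, Fin (s.cv.per c.1)) (h : act s l (dm s.D.N l τ) y) :
    InI (s.MR x A ⊔ m.a * b) ((s.itR x A (ph s l y)).J A (dm s.D.N l τ) i j -
      tm s x A l (dm s.D.N l τ) ((prm l).symm d) (oQ τ d) i j y.1 y.2) := by
  obtain ⟨i0, side⟩ := l
  obtain ⟨⟨c, hc⟩, k, hk⟩ := y
  obtain rfl : s.col c = i0 := hc
  obtain ⟨Q, r, a1, a2, a3, a4, a5, a6, a7, f, f1, f2, f3, f4, f5⟩ :=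
    act_data s c hk side (dm_odd _ h3) h.1 h.2
  set θ := dm s.D.N (s.col c, side) τ with hθ
  set y := ph s (s.col c, side) ⟨⟨c, rfl⟩, k, hk⟩ with hy
  have y1 : y.1 = s.shS c side := rfl
  have y2 : y.2.1 = Q := a3
  have hsh := s.D.shape (s.cv.labS (s.shS c side)) Q a2
  obtain ⟨k1, l1, α, β, hkl, hα, hβ, e1, e2, -, hz⟩ := nd_data hsh a4
  obtain ⟨z1, z2⟩ := hz r a1
  have t1 : (s.itR x A y).σ = s.FF (s.shS c side) (ctr Q) := by simp only [Setup.itR, y1, y2]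
  have t2 : (s.itR x A y).k = k1 := by simp only [Setup.itR, y1, y2, e1, dirOf_smul hα]
  have t3 : (s.itR x A y).l = l1 := by simp only [Setup.itR, y1, y2, e2, dirOf_smul hβ]
  have t4 : (s.itR x A y).o = α * β := by
    simp only [Setup.itR, y1, y2, e1, e2, dirOf_smul hα, dirOf_smul hβ]
    rw [if_pos ⟨a4, f, f1, f2, f4⟩]
    simp [ee_same]
  have ho : (s.itR x A y).o ≠ 0 := by
    rw [t4]; rcases hα with rfl | rfl <;> rcases hβ with rfl | rfl <;> simp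
  have z3 : θ = s.FF (s.shS c side) (ctr Q) + ((r.1 - (ctr Q).1) * α) • ee k1 +
      ((r.2 - (ctr Q).2) * β) • ee l1 := a5.symm.trans z1
  have hxy := gadj_xy a1
  have hst : (s.itR x A y).Star θ := by
    rw [Item.Star, t1, t2, t3]
    generalize s.FF (s.shS c side) (ctr Q) = σ at z3
    rw [z3]
    refine ⟨fun j h1 h2 => by simp [ee_ne h1, ee_ne h2], ?_, ?_⟩
    · simp only [Pi.add_apply, Pi.smul_apply, ee_same, ee_ne hkl, smul_eq_mul, abs_le]
      rcases hα with rfl | rfl <;> omega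
    · simp only [Pi.add_apply, Pi.smul_apply, ee_same, ee_ne hkl.symm, smul_eq_mul, abs_le]
      rcases hβ with rfl | rfl <;> omega
  have v1 := s.xi_eta m hx hp hs y ho f1 f2 (f3.trans y2.symm) f5
  rw [y1, a5] at v1
  have hm := (ref_mid a1 (s.D.F (s.cv.labS (s.shS c side)))).symm.trans a5
  have hstep := step_mid hsh a1
  have key : ∃ k' ≤ s.cv.per c, s.cv.vx c k' = r ∧
      tm s x A (s.col c, side) θ ((prm (s.col c, side)).symm d) (oQ τ d) i j ⟨c, rfl⟩ k =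
      (α * β * eps4 i j k1 l1) • (hat θ (s.FF (s.shS c side) (ctr Q)) k1 *
        hat θ (s.FF (s.shS c side) (ctr Q)) l1 : RR O) • xv s x A (s.col c, side) ⟨c, rfl⟩ k' := by
    rcases a7 with ⟨u1, u2, u3⟩ | ⟨u1, u2, u3⟩
    · refine ⟨k + 1, hk, u2, ?_⟩
      have w := (wall_pair s.D.hN (s.col c, side) h3 hstep hm).1 u3
      rw [z2] at w
      rw [← loc hkl (oQ_cases τ d) hxy z3 w]
      simp only [tm, pF, u1, u2, a5, if_neg a6, if_true, zero_add]
    · refine ⟨k, hk.le, u1, ?_⟩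
      have w := (wall_pair s.D.hN (s.col c, side) h3 (isStep_sub hstep)
        ((congrArg (· + 1) (add_comm _ _)).trans hm)).1 u3
      rw [← neg_sub, z2, Pi.neg_apply, neg_eq_iff_eq_neg] at w
      rw [← loc hkl (o := -oQ τ d) (by rcases oQ_cases τ d with e | e <;> simp [e]) hxy z3 w]
      simp only [tm, pF, u1, u2, a5, if_neg a6, if_true, add_zero]
      refine Finset.sum_congr rfl fun d' _ => ?_
      congr 1
      ring
  obtain ⟨k', hk', u, e⟩ := key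
  have v2 := s.eta_curve m hx hp hs c side hk'
  rw [u] at v2
  have v3 := InC.add v1 v2
  rw [sub_add_sub_cancel] at v3
  simp only [e, Item.J, if_pos hst, t1, t2, t3, t4]
  rw [← smul_sub, ← smul_sub]
  exact (v3.smul _).zsmul _

theorem wall_R (l : Lg) {τ : Pt} {d : Fin 4} (h3 : Is3 s.n τ d) (hV : τ ∈ V0 l.1 s.n)
    (i j : Fin 4) : InI (s.MR x A ⊔ m.a * b) (s.JR x A (dm s.D.N l τ) i j -
      ∑ c : s.L.C l.1, ∑ k ∈ Finset.range (s.cv.per c.1),
        tm s x A l (dm s.D.N l τ) ((prm l).symm d) (oQ τ d) i j c k) := by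
  simp only [Finset.sum_range]
  rw [Finset.sum_sigma', Setup.JR, JJ, Finset.sum_apply, Finset.sum_apply, Finset.sum_apply]
  exact sum_sub_mem (sgI _) _ _ _ (act s l (dm s.D.N l τ)) (ph s l)
    (fun y _ h => tm_zero s x A l _ _ _ i j y h)
    (fun y _ y' _ => ph_inj s l (dm_odd l h3) y y')
    (fun y _ h => ph_val s m hx hp hs l h3 i j y h)
    (fun y h => by
      obtain ⟨z, h1, h2⟩ := ph_surj s x A l h3 hV i j y h
      exact ⟨z, by simp, h1, h2⟩)

omit hx hs in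
theorem Jw_V0 (l : Lg) {τ : Pt} {d : Fin 4} (hV : τ ∈ V0 l.1 s.n) (i j : Fin 4) :
    (s.CS l.1).Jw (s.Al A B l) (s.Xv x A l) τ d i j =
      renH (prm l) (∑ c : s.L.C l.1, ∑ k ∈ Finset.range (s.cv.per c.1),
        tm s x A l (dm s.D.N l τ) ((prm l).symm d) (oQ τ d) ((prm l).symm i) ((prm l).symm j)
          c k) := by
  have hno : ∀ k, oP s.n l.1 k ≠ τ := fun k e => by
    obtain ⟨-, j, h1, h2, h⟩ := hV
    have := s.D.hN
    rw [← e, oP, if_neg h1, if_neg h2] at h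
    omega
  rw [CurveSys.Jw, Fintype.sum_option, map_sum]
  have h0 : ∀ k, (s.CS l.1).pt none k = oP s.n l.1 k := fun _ => rfl
  simp only [h0, if_neg (hno _), add_zero, smul_zero, Finset.sum_const_zero, zero_add]
  refine Finset.sum_congr rfl fun c _ => ?_
  rw [map_sum]
  refine Finset.sum_congr rfl fun k hk => ?_
  obtain ⟨i0, side⟩ := l
  obtain ⟨c, hc⟩ := c
  obtain rfl : s.col c = i0 := hc
  have hk : k < s.cv.per c := Finset.mem_range.1 hk
  have h1 : ∀ k, (s.CS (s.col c)).pt (some ⟨c, rfl⟩) k = s.stdP c k := fun _ => rfl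
  have h2 : ∀ k, pF s (s.col c, side) ⟨c, rfl⟩ k = dm s.D.N (s.col c, side) (s.stdP c k) :=
    fun k => (s.FF_side c side k).symm
  have h4 : ∀ k ≤ s.cv.per c, (s.CS (s.col c)).xi (s.Al A B (s.col c, side))
      (s.Xv x A (s.col c, side)) (some ⟨c, rfl⟩) k =
      renH (prm (s.col c, side)) (xv s x A (s.col c, side) ⟨c, rfl⟩ k) := fun k hk => by
    rw [CurveSys.xi, s.G_some hp m.nil c side hk, Ad_renU]
    rfl
  have h5 : ∀ p, dm s.D.N (s.col c, side) p = dm s.D.N (s.col c, side) τ ↔ p = τ := fun p =>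
    ⟨dm_inj _ _, fun e => e ▸ rfl⟩
  have h6 : ∀ (p : Pt) (e : Fin 4), (rename (prm (s.col c, side)) (hat (dm s.D.N (s.col c, side) τ)
      (dm s.D.N (s.col c, side) p) ((prm (s.col c, side)).symm e) : RR O) : RR O) = hat τ p e :=
    fun p e => by rw [dm_eq, dm_eq, rename_hat]
  have h7 : ∀ e, eps4 ((prm (s.col c, side)).symm d) ((prm (s.col c, side)).symm e)
      ((prm (s.col c, side)).symm i) ((prm (s.col c, side)).symm j) = eps4 d e i j := fun e => by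
    rw [eps4_perm, Equiv.Perm.sign_symm, sign_prm, Units.val_one, one_mul]
  unfold tm
  rw [map_sum]
  refine Fintype.sum_equiv (prm (s.col c, side)).symm _ _ fun e => ?_
  simp only [h1, h2, h4 k hk.le, h4 (k + 1) hk, h5, map_zsmul, map_add, apply_ite (renH _), map_zero,
    renH_smul, h6, h7]
  congr 2
  simp only [dm, Equiv.apply_symm_apply]
  ring

theorem crit_V0 (l : Lg) {τ : Pt} {d : Fin 4} (h3 : Is3 s.n τ d) (hV : τ ∈ V0 l.1 s.n)
    (i j : Fin 4) (hi : i ≠ d) (hj : j ≠ d) : InI (b ⊔ (s.MR x A ⊔ m.a * b))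
      (curv (s.Al A B l) τ i j - (s.CS l.1).Jw (s.Al A B l) (s.Xv x A l) τ d i j) := by
  have e : s.Al A B l τ = pull (prm l) ((s.D.N : ℤ) • org l) A τ := by
    funext i; simp only [Setup.Al, if_pos hV]
  rw [Jw_V0 s m hp l hV, curv_congr e, curv_pull, ← dm_eq, ← renH_eq, ← map_sub, renH_eq, inI_renM]
  have h1 := hs _ (dm_V0 s.D.hN l hV) ((prm l).symm i) ((prm l).symm j)
    (dm_odd l h3 _ (by simpa using hi)) (dm_odd l h3 _ (by simpa using hj))
  have h2 := wall_R s m hx hp hs l h3 hV ((prm l).symm i) ((prm l).symm j)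
  have h4 := InC.add (h1.mono le_sup_left) (h2.mono le_sup_right)
  simp only [Pi.sub_apply] at h4
  rwa [sub_add_sub_cancel] at h4

end Vale.Agent.P215Z.Cr
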