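import Vale.Agent.P215Z.Reg.Crit.Sq
import Vale.Agent.P215Z.Frm.Pull

/-!
# P215, R4: general lemmas
-/

noncomputable section
namespace Vale.Agent.P215Z.Cr
open MvPolynomial Classical

theorem sum_sub_mem {M α β : Type} [AddCommGroup M] [Fintype α] (S : AddSubgroup M) (t : Finset β)
    (f : α → M) (g : β → M) (act : β → Prop) (φ : β → α) (h0 : ∀ b ∈ t, ¬ act b → g b = 0)
    (hinj : ∀ b ∈ t, ∀ b' ∈ t, act b → act b' → φ b = φ b' → b = b')
    (h1 : ∀ b ∈ t, act b → f (φ b) - g b ∈ S)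
    (h2 : ∀ a, f a ≠ 0 → ∃ b ∈ t, act b ∧ φ b = a) : ∑ a, f a - ∑ b ∈ t, g b ∈ S := by
  have e1 : ∑ b ∈ t, g b = ∑ b ∈ t.filter act, g b :=
    (Finset.sum_filter_of_ne fun b hb hg => by_contra fun h => hg (h0 b hb h)).symm
  have e2 : ∑ a, f a = ∑ b ∈ t.filter act, f (φ b) := by
    rw [← Finset.sum_image (s := t.filter act) (g := φ) (f := f) fun b hb b' hb' h =>
      hinj b (Finset.mem_filter.1 hb).1 b' (Finset.mem_filter.1 hb').1
        (Finset.mem_filter.1 hb).2 (Finset.mem_filter.1 hb').2 h]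
    refine (Finset.sum_subset (Finset.subset_univ _) fun a _ ha => by_contra fun h => ha ?_).symm
    obtain ⟨b, hb, h3, rfl⟩ := h2 a h
    exact Finset.mem_image_of_mem _ (Finset.mem_filter.2 ⟨hb, h3⟩)
  rw [e1, e2, ← Finset.sum_sub_distrib]
  exact S.sum_mem fun b hb => h1 b (Finset.mem_filter.1 hb).1 (Finset.mem_filter.1 hb).2

theorem eps4_a (i j k l : Fin 4) : eps4 k l i j = eps4 i j k l := by
  revert i j k l; decide
theorem eps4_b (i j k l : Fin 4) : eps4 l k i j = -eps4 i j k l := by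
  revert i j k l; decide
theorem eps4_3 {i j : Fin 4} (k : Fin 4) (h : i = 3 ∨ j = 3) : eps4 i j k 3 = 0 := by
  revert i j k; decide

theorem of_inj {i j : Fin 3} (h : (FreeGroup.of i : F3) = FreeGroup.of j) : i = j :=
  FreeGroup.of_injective h

theorem of_mul_of_ne (i j : Fin 3) : (FreeGroup.of i * FreeGroup.of j : F3) ≠ 1 := by
  intro h
  have := congrArg (FreeGroup.lift fun _ : Fin 3 => Multiplicative.ofAdd (1 : ℤ)) h
  simp [← ofAdd_add] at this

theorem of_ne (i : Fin 3) : (FreeGroup.of i : F3) ≠ 1 := by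
  intro h
  exact of_mul_of_ne i i (by rw [h, mul_one])

/-! ### cubes -/

theorem org_gap : ∀ l l' : Lg, l ≠ l' →
    ∃ j : Fin 4, j ≠ 3 ∧ (org l j + 4 ≤ org l' j ∨ org l' j + 4 ≤ org l j) := by
  decide

theorem org_three : ∀ l : Lg, org l 3 = 0 := by decide

theorem kap_ne (i : Fin 3) : kap i ≠ 3 := by revert i; decide

theorem Qc_sep {N : ℕ} (hN : 0 < N) {l l' : Lg} {q q' : Pt} (h : q ∈ Qc N l) (h' : q' ∈ Qc N l')
    (hd : ∀ j, |q j - q' j| ≤ 1) : l = l' := by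
  by_contra hne
  obtain ⟨j, -, hj⟩ := org_gap l l' hne
  have a1 := h j
  have a2 := h' j
  have a3 := abs_le.1 (hd j)
  have hN' : (1 : ℤ) ≤ N := by exact_mod_cast hN
  simp only [Pi.add_apply, Pi.ofNat_apply] at a1 a2
  rcases hj with hj | hj <;> nlinarith [a1.1, a1.2, a2.1, a2.2, a3.1, a3.2]

theorem dm_sep {N : ℕ} (hN : 0 < N) {l l' : Lg} {p p' : Pt}
    (h : ∀ j, 0 ≤ p j ∧ p j ≤ 2 * (3 * N : ℕ)) (h' : ∀ j, 0 ≤ p' j ∧ p' j ≤ 2 * (3 * N : ℕ))
    (hd : ∀ j, j ≠ 3 → |dm N l p j - dm N l' p' j| ≤ 1) : l = l' := by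
  by_contra hne
  obtain ⟨j, h3, hj⟩ := org_gap l l' hne
  have a1 := h (prm l j)
  have a2 := h' (prm l' j)
  have a3 := abs_le.1 (hd j h3)
  have hN' : (1 : ℤ) ≤ N := by exact_mod_cast hN
  simp only [dm] at a3
  push_cast at a1 a2
  rcases hj with hj | hj <;> nlinarith [a1.1, a1.2, a2.1, a2.2, a3.1, a3.2]

theorem step_abs {a : Pt} (h : IsStep a) (j : Fin 4) : |a j| ≤ 1 := by
  rcases h with rfl | ⟨k, rfl | rfl⟩
  · simp
  · by_cases h : j = k <;> simp [ee, h]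
  · by_cases h : j = k <;> simp [ee, h]

theorem thC_mem {N : ℕ} {i : Fin 3} {q : Pt} (h : q ∈ Qc N (i, true)) :
    thC N i q ∈ Qc N (i, false) := by
  intro j
  have := h (ppi i j)
  simp only [thC, Pi.add_apply, Pi.ofNat_apply] at this ⊢
  constructor <;> nlinarith [this.1, this.2]

/-- the two cubes at a wall cell -/
theorem wall_pair {N : ℕ} (hN : 0 < N) (l : Lg) {τ : Pt} {d : Fin 4} (h : Is3 (3 * N) τ d)
    {x y : Pt} (hs : IsStep (x - y)) (he : x + y + 1 = dm N l τ) :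
    (x ∈ Qc N l → (x - y) ((prm l).symm d) = -oQ τ d) ∧ (x ∉ Qc N l → y ∈ Qc N l) ∧
      (x ∉ Qc N l → (∀ j, j ≠ (prm l).symm d → N * org l j ≤ x j ∧ x j < N * (org l j + 3)) ∧
        (x ((prm l).symm d) = N * org l ((prm l).symm d) - 1 ∨
          x ((prm l).symm d) = N * (org l ((prm l).symm d) + 3))) := by
  set ν := (prm l).symm d with hν
  have hN' : (1 : ℤ) ≤ N := by exact_mod_cast hN
  have e : ∀ j, x j + y j + 1 = τ (prm l j) + 2 * (N * org l j) := fun j => by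
    have := congrFun he j
    simp only [Pi.add_apply, Pi.one_apply, dm] at this
    rw [this]; ring
  have b : ∀ j, -1 ≤ x j - y j ∧ x j - y j ≤ 1 := fun j => abs_le.1 (step_abs hs j)
  have a1 : ∀ j, j ≠ ν → (N * org l j ≤ x j ∧ x j < N * (org l j + 3)) ∧
      N * org l j ≤ y j ∧ y j < N * (org l j + 3) := fun j hj => by
    obtain ⟨⟨t, ht⟩, c1, c2⟩ := h.2 (prm l j) fun h' => hj (by rw [hν, ← h', Equiv.symm_apply_apply])
    have := e j
    have := b j
    rw [mul_add]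
    push_cast at c2
    omega
  have a2 := e ν
  have a3 := b ν
  rw [hν, Equiv.apply_symm_apply, ← hν] at a2
  have a4 := h.1
  push_cast at a4
  have q : ∀ z : Pt, (∀ j, j ≠ ν → N * org l j ≤ z j ∧ z j < N * (org l j + 3)) →
      (z ∈ Qc N l ↔ N * org l ν ≤ z ν ∧ z ν < N * org l ν + N * 3) := fun z hz => by
    refine ⟨fun h' => by simpa [mul_add] using h' ν, fun h' j => ?_⟩
    by_cases hj : j = ν
    · subst hj; simpa [mul_add] using h'
    · simpa using hz j hj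
  rw [q x fun j hj => (a1 j hj).1, q y fun j hj => (a1 j hj).2, Pi.sub_apply, oQ, mul_add]
  refine ⟨fun h' => ?_, fun h' => by omega, fun h' => ⟨fun j hj => (a1 j hj).1, by omega⟩⟩
  split_ifs <;> omega

theorem cave {N : ℕ} {y : Pt} (hU : y ∈ Uc N) (a0 a1 a2 b0 b1 b2 : ℤ)
    (hm : (![a0, a1, a2, 0], ![b0, b1, b2, 3]) ∈ caves) : ¬ ((N * a0 ≤ y 0 ∧ y 0 < N * b0) ∧
      (N * a1 ≤ y 1 ∧ y 1 < N * b1) ∧ N * a2 ≤ y 2 ∧ y 2 < N * b2) := by
  rintro ⟨h0, h1, h2⟩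
  refine hU.2 _ hm fun j => ?_
  fin_cases j
  exacts [h0, h1, h2, hU.1 3]

theorem ppi_cases : ∀ (i : Fin 3) (d : Fin 4), d ≠ kap i → d ≠ 3 → (ppi i).symm d = 3 ∨
    (i = 0 ∧ (ppi i).symm d = 0) ∨ (i = 1 ∧ (ppi i).symm d = 1) ∨ (i = 2 ∧ (ppi i).symm d = 1) := by
  decide

theorem out_U {N : ℕ} (hN : 0 < N) (i : Fin 3) (d : Fin 4) (h1 : d ≠ kap i) (h2 : d ≠ 3) {y : Pt}
    (hy : ∀ j, j ≠ (ppi i).symm d →
      N * org (i, false) j ≤ y j ∧ y j < N * (org (i, false) j + 3))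
    (hν : y ((ppi i).symm d) = N * org (i, false) ((ppi i).symm d) - 1 ∨
      y ((ppi i).symm d) = N * (org (i, false) ((ppi i).symm d) + 3)) : y ∉ Uc N := by
  intro hU
  rcases ppi_cases i d h1 h2 with h | ⟨hi, h⟩ | ⟨hi, h⟩ | ⟨hi, h⟩ <;> rw [h] at hy hν
  · have hb : (N : ℤ) * 0 ≤ y 3 ∧ y 3 < N * 3 := hU.1 3
    rw [org_three] at hν; omega
  · subst hi
    have y1 : (N : ℤ) * 3 ≤ y 1 ∧ y 1 < N * (3 + 3) := hy 1 (by decide)
    have y2 : (N : ℤ) * 7 ≤ y 2 ∧ y 2 < N * (7 + 3) := hy 2 (by decide)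
    have y0 : y 0 = N * 9 - 1 ∨ y 0 = N * (9 + 3) := hν
    have c1 := cave hU 0 3 7 9 6 14 (by simp [caves])
    have c2 := cave hU 12 3 7 16 6 14 (by simp [caves])
    omega
  · subst hi
    have y1 : (N : ℤ) * 9 ≤ y 0 ∧ y 0 < N * (9 + 3) := hy 0 (by decide)
    have y2 : (N : ℤ) * 19 ≤ y 2 ∧ y 2 < N * (19 + 3) := hy 2 (by decide)
    have y0 : y 1 = N * 3 - 1 ∨ y 1 = N * (3 + 3) := hν
    have c1 := cave hU 9 1 15 12 3 22 (by simp [caves])
    have c2 := cave hU 9 6 15 12 8 22 (by simp [caves])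
    omega
  · subst hi
    have y1 : (N : ℤ) * 1 ≤ y 0 ∧ y 0 < N * (1 + 3) := hy 0 (by decide)
    have y2 : (N : ℤ) * 1 ≤ y 2 ∧ y 2 < N * (1 + 3) := hy 2 (by decide)
    have y0 : y 1 = N * 3 - 1 ∨ y 1 = N * (3 + 3) := hν
    have c1 := cave hU 1 1 1 8 3 4 (by simp [caves])
    have c2 := cave hU 1 6 1 8 8 4 (by simp [caves])
    omega

/-! ### renaming -/

variable {O : Type} [CommRing O]

/-- matrices with entries in an ideal -/
def sgI (b : Ideal O) : AddSubgroup (MM O) where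
  carrier := {x | InI b x}
  add_mem' := fun h h' => InC.add h h'
  zero_mem' := InC.zero
  neg_mem' := fun h => InC.neg h

def renH (π : Equiv.Perm (Fin 4)) : MM O →+* MM O :=
  RingHom.mapMatrix (m := Fin 2) (rename π : RR O →ₐ[O] RR O).toRingHom

theorem renH_eq (π : Equiv.Perm (Fin 4)) (x : MM O) : renH π x = renM π x := rfl

theorem renH_smul (π : Equiv.Perm (Fin 4)) (r : RR O) (x : MM O) :
    renH π (r • x) = (rename π r : RR O) • renH π x := by
  ext1 a a'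
  simp [renH]

theorem Ad_renU [Algebra ℚ O] (π : Equiv.Perm (Fin 4)) (g : (MM O)ˣ) (y : M2 O) :
    Ad (renU π g) (cst y) = renH π (Ad g (cst y)) := by
  rw [Ad, Ad, map_mul, map_mul, renH_eq π (cst y), renM_cst, ← map_inv]
  rfl

theorem renM_one (x : MM O) : renM 1 x = x := by
  ext1 a a'
  simp [renM]

theorem renU_one (g : (MM O)ˣ) : renU 1 g = g := Units.ext (renM_one _)

theorem curv_congr {A A' : F1 O} {p : Pt} (h : A p = A' p) (i j : Fin 4) :
    curv A p i j = curv A' p i j := by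
  simp only [curv, dd1, h]

theorem hat_same {τ σ : Pt} {m : Fin 4} (h : τ m = σ m) : (hat τ σ m : RR O) = 1 := by
  rw [hat, if_neg (by omega), if_neg (by omega)]

theorem hat_add {τ σ σ' : Pt} {m : Fin 4} {t : ℤ} (ht : t = 1 ∨ t = -1) (h : σ m = τ m + t)
    (h' : σ' m = τ m - t) : (hat τ σ m + hat τ σ' m : RR O) = 1 := by
  rcases ht with rfl | rfl
  · rw [hat, hat, if_neg (by omega), if_pos (by omega), if_pos (by omega)]; ring
  · rw [hat, hat, if_pos (by omega), if_neg (by omega), if_pos (by omega)]; ring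

end Vale.Agent.P215Z.Cr
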