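import Vale.Agent.P215Z.Reg.Defs

/-!
# P215, R4: the refined map near the centre of a coarse square
-/

noncomputable section
namespace Vale.Agent.P215Z.Cr
open Classical

theorem lf_e (r : Gp) : lf r (r + (1, 0)) = r := by simp [lf]
theorem lf_n (r : Gp) : lf r (r + (0, 1)) = r - (1, 0) := by simp [lf]
theorem lf_w (r : Gp) : lf r (r - (1, 0)) = r - (1, 1) := by
  simp [lf, Prod.ext_iff]; omega
theorem lf_s (r : Gp) : lf r (r - (0, 1)) = r - (0, 1) := by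
  simp [lf, Prod.ext_iff]; omega
theorem rt_e (r : Gp) : rt r (r + (1, 0)) = r - (0, 1) := by
  have := lf_w (r + (1, 0))
  rw [add_sub_cancel_right] at this
  rw [rt, this]; ext <;> simp
theorem rt_n (r : Gp) : rt r (r + (0, 1)) = r := by
  have := lf_s (r + (0, 1))
  rw [add_sub_cancel_right] at this
  rw [rt, this]
theorem rt_w (r : Gp) : rt r (r - (1, 0)) = r - (1, 0) := by
  have := lf_e (r - (1, 0))
  rw [sub_add_cancel] at this
  rw [rt, this]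
theorem rt_s (r : Gp) : rt r (r - (0, 1)) = r - (1, 1) := by
  have := lf_n (r - (0, 1))
  rw [sub_add_cancel] at this
  rw [rt, this]; ext <;> simp

theorem gadj_symm {r r' : Gp} (h : GAdj r r') : GAdj r' r := by
  rcases h with rfl | rfl | rfl | rfl <;> simp [GAdj]

theorem ref_ee (F : Gp → Pt) (a b : ℤ) : ref F (2 * a, 2 * b) = cell (F (a, b)) := by
  simp [ref]

theorem ref_oe (F : Gp → Pt) (a b : ℤ) :
    ref F (2 * a + 1, 2 * b) = F (a, b) + F (a + 1, b) + 1 := by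
  have h : (2 * a + 1) / 2 = a := by omega
  simp [ref, h]

theorem ref_eo (F : Gp → Pt) (a b : ℤ) :
    ref F (2 * a, 2 * b + 1) = F (a, b) + F (a, b + 1) + 1 := by
  have h : (2 * b + 1) / 2 = b := by omega
  have e : ¬ Even (2 * b + 1) := by rw [Int.even_iff]; omega
  simp [ref, h, e]

theorem ref_oo (F : Gp → Pt) (a b : ℤ) : ref F (2 * a + 1, 2 * b + 1) =
    if F (a, b) = F (a + 1, b + 1) then F (a + 1, b) + F (a, b + 1) + 1
    else F (a, b) + F (a + 1, b + 1) + 1 := by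
  have h : (2 * a + 1) / 2 = a := by omega
  have h' : (2 * b + 1) / 2 = b := by omega
  have e : ¬ Even (2 * b + 1) := by rw [Int.even_iff]; omega
  have e' : ¬ Even (2 * a + 1) := by rw [Int.even_iff]; omega
  simp only [ref, h, h', e, e', false_and, if_false]

/-- the four midpoints of a coarse square, with the coarse vertices to the left and right -/
theorem mid_cases {a b : ℤ} {m : Gp} (h : GAdj (ctr (a, b)) m) :
    (m = (2 * (a + 1), 2 * b + 1) ∧ lf (ctr (a, b)) m = (2 * a + 1, 2 * b + 1) ∧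
      rt (ctr (a, b)) m = (2 * a + 1, 2 * b)) ∨
    (m = (2 * a, 2 * b + 1) ∧ lf (ctr (a, b)) m = (2 * a, 2 * b) ∧
      rt (ctr (a, b)) m = (2 * a, 2 * b + 1)) ∨
    (m = (2 * a + 1, 2 * (b + 1)) ∧ lf (ctr (a, b)) m = (2 * a, 2 * b + 1) ∧
      rt (ctr (a, b)) m = (2 * a + 1, 2 * b + 1)) ∨
    (m = (2 * a + 1, 2 * b) ∧ lf (ctr (a, b)) m = (2 * a + 1, 2 * b) ∧
      rt (ctr (a, b)) m = (2 * a, 2 * b)) := by
  rcases h with rfl | rfl | rfl | rfl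
  · left; rw [lf_e, rt_e]; simp [ctr, Prod.ext_iff]; ring
  · right; left; rw [lf_w, rt_w]; simp [ctr]
  · right; right; left; rw [lf_n, rt_n]; simp [ctr, Prod.ext_iff]; ring
  · right; right; right; rw [lf_s, rt_s]; simp [ctr]

theorem crn_oo (a b : ℤ) : crn (2 * a + 1, 2 * b + 1) = (a + 1, b + 1) := by
  simp only [crn, Prod.ext_iff]; omega
theorem crn_oe (a b : ℤ) : crn (2 * a + 1, 2 * b) = (a + 1, b) := by
  simp only [crn, Prod.ext_iff]; omega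
theorem crn_eo (a b : ℤ) : crn (2 * a, 2 * b + 1) = (a, b + 1) := by
  simp only [crn, Prod.ext_iff]; omega
theorem crn_ee (a b : ℤ) : crn (2 * a, 2 * b) = (a, b) := by
  simp only [crn, Prod.ext_iff]; omega

section mid
variable {Q m : Gp} (h : GAdj (ctr Q) m)
include h

theorem sq_lf : sqOf (lf (ctr Q) m) = Q ∧ sqOf (rt (ctr Q) m) = Q := by
  obtain ⟨a, b⟩ := Q
  rcases mid_cases h with ⟨-, h1, h2⟩ | ⟨-, h1, h2⟩ | ⟨-, h1, h2⟩ | ⟨-, h1, h2⟩ <;>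
    rw [h1, h2] <;> simp only [sqOf, Prod.ext_iff] <;> omega

theorem corner_lf : Corner (lf (ctr Q) m) (ctr Q) ∧ Corner (lf (ctr Q) m) m ∧
    Corner (rt (ctr Q) m) (ctr Q) ∧ Corner (rt (ctr Q) m) m := by
  obtain ⟨a, b⟩ := Q
  rcases mid_cases h with ⟨h0, h1, h2⟩ | ⟨h0, h1, h2⟩ | ⟨h0, h1, h2⟩ | ⟨h0, h1, h2⟩ <;>
    rw [h1, h2, h0] <;> simp [Corner, ctr, mul_add, add_assoc]

theorem corner_crn : Corner Q (crn (lf (ctr Q) m)) ∧ Corner Q (crn (rt (ctr Q) m)) := by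
  obtain ⟨a, b⟩ := Q
  rcases mid_cases h with ⟨-, h1, h2⟩ | ⟨-, h1, h2⟩ | ⟨-, h1, h2⟩ | ⟨-, h1, h2⟩ <;>
    rw [h1, h2] <;> simp only [Corner, crn] <;> omega

theorem inSq_lf (M : ℕ) : (InSq (2 * M) (lf (ctr Q) m) ↔ InSq M Q) ∧
    (InSq (2 * M) (rt (ctr Q) m) ↔ InSq M Q) := by
  obtain ⟨a, b⟩ := Q
  rcases mid_cases h with ⟨-, h1, h2⟩ | ⟨-, h1, h2⟩ | ⟨-, h1, h2⟩ | ⟨-, h1, h2⟩ <;>
    rw [h1, h2] <;> simp only [InSq] <;> push_cast <;> omega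

theorem gadj_lf : GAdj (lf (ctr Q) m) (rt (ctr Q) m) := by
  obtain ⟨a, b⟩ := Q
  rcases mid_cases h with ⟨-, h1, h2⟩ | ⟨-, h1, h2⟩ | ⟨-, h1, h2⟩ | ⟨-, h1, h2⟩ <;>
    rw [h1, h2] <;> simp [GAdj]

theorem ref_mid (F : Gp → Pt) :
    ref F m = F (crn (lf (ctr Q) m)) + F (crn (rt (ctr Q) m)) + 1 := by
  obtain ⟨a, b⟩ := Q
  rcases mid_cases h with ⟨h0, h1, h2⟩ | ⟨h0, h1, h2⟩ | ⟨h0, h1, h2⟩ | ⟨h0, h1, h2⟩ <;>
    rw [h1, h2, h0] <;> simp only [crn_oo, crn_oe, crn_eo, crn_ee, ref_oe, ref_eo] <;> abel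

end mid

theorem corner_cases {f r : Gp} (h : Corner f r) : r = ctr (sqOf f) ∨
    r = (2 * (crn f).1, 2 * (crn f).2) ∨
    (GAdj (ctr (sqOf f)) r ∧ (f = lf (ctr (sqOf f)) r ∨ f = rt (ctr (sqOf f)) r)) := by
  obtain ⟨x, y⟩ := f
  obtain ⟨u, v⟩ := r
  by_cases h1 : (u, v) = ctr (sqOf (x, y))
  · exact Or.inl h1
  by_cases h2 : (u, v) = (2 * (crn (x, y)).1, 2 * (crn (x, y)).2)
  · exact Or.inr (Or.inl h2)
  have h3 : GAdj (ctr (sqOf (x, y))) (u, v) := by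
    simp only [GAdj, ctr, sqOf, crn, Corner, Prod.ext_iff, Prod.fst_add, Prod.snd_add,
      Prod.fst_sub, Prod.snd_sub] at *
    omega
  refine Or.inr (Or.inr ⟨h3, ?_⟩)
  have h4 : sqOf (x, y) = (x / 2, y / 2) := rfl
  rw [h4] at h3 ⊢
  rcases mid_cases h3 with ⟨h0, h5, h6⟩ | ⟨h0, h5, h6⟩ | ⟨h0, h5, h6⟩ | ⟨h0, h5, h6⟩ <;>
    rw [h5, h6] <;> simp only [Prod.ext_iff, Corner] at h0 h ⊢ <;> omega

theorem edge_cases {r r' : Gp} (h : GAdj r r') (hne : crn (lf r r') ≠ crn (rt r r')) :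
    r = ctr (sqOf (lf r r')) ∨ r' = ctr (sqOf (lf r r')) := by
  obtain ⟨x, y⟩ := r
  rcases h with rfl | rfl | rfl | rfl
  · rw [lf_e, rt_e] at hne; rw [lf_e]
    simp [crn, ctr, sqOf, Prod.ext_iff] at hne ⊢; omega
  · rw [lf_w, rt_w] at hne; rw [lf_w]
    simp [crn, ctr, sqOf, Prod.ext_iff] at hne ⊢; omega
  · rw [lf_n, rt_n] at hne; rw [lf_n]
    simp [crn, ctr, sqOf, Prod.ext_iff] at hne ⊢; omega
  · rw [lf_s, rt_s] at hne; rw [lf_s]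
    simp [crn, ctr, sqOf, Prod.ext_iff] at hne ⊢; omega

theorem ctr_ne_mid {Q Q' m : Gp} (h : GAdj (ctr Q) m) : m ≠ ctr Q' := by
  obtain ⟨a, b⟩ := Q
  rcases mid_cases h with ⟨h0, -⟩ | ⟨h0, -⟩ | ⟨h0, -⟩ | ⟨h0, -⟩ <;>
    rw [h0] <;> simp only [ctr, ne_eq, Prod.ext_iff] <;> omega

/-! ### steps and shapes -/

theorem isStep_neg {a : Pt} (h : IsStep a) : IsStep (-a) := by
  rcases h with rfl | ⟨k, rfl | rfl⟩
  · left; simp
  · exact Or.inr ⟨k, Or.inr rfl⟩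
  · exact Or.inr ⟨k, Or.inl (neg_neg _)⟩

theorem isStep_sub {x y : Pt} (h : IsStep (x - y)) : IsStep (y - x) := by
  rw [← neg_sub]; exact isStep_neg h

theorem isStep_self (x : Pt) : IsStep (x - x) := Or.inl (sub_self x)

theorem isStep_eq {a : Pt} (h : IsStep a) (h0 : a ≠ 0) :
    ∃ k, ∃ α : ℤ, (α = 1 ∨ α = -1) ∧ a = α • ee k := by
  rcases h with rfl | ⟨k, rfl | rfl⟩
  · exact absurd rfl h0
  · exact ⟨k, 1, Or.inl rfl, by simp⟩
  · exact ⟨k, -1, Or.inr rfl, by simp⟩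

theorem shape_step {q00 q10 q01 q11 : Pt} (h : Shape q00 q10 q01 q11) :
    IsStep (q10 - q00) ∧ IsStep (q01 - q00) ∧ IsStep (q11 - q01) ∧ IsStep (q11 - q10) := by
  rcases h with ⟨a, b, ha, hb, -, rfl, rfl, rfl⟩ | ⟨rfl, rfl, h⟩ | ⟨rfl, rfl, h⟩ | ⟨rfl, rfl, h⟩ |
    ⟨rfl, rfl, h⟩
  · refine ⟨by simpa using ha, by simpa using hb, ?_, by simpa using hb⟩
    rw [show q00 + a + b - (q00 + b) = a by abel]; exact ha
  · exact ⟨isStep_sub h, isStep_sub h, isStep_self _, isStep_self _⟩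
  · exact ⟨h, isStep_self _, isStep_self _, isStep_sub h⟩
  · exact ⟨isStep_self _, h, isStep_sub h, isStep_self _⟩
  · exact ⟨isStep_self _, isStep_self _, h, h⟩

theorem ee_same (k : Fin 4) : ee k k = 1 := by simp [ee]
theorem ee_ne {k j : Fin 4} (h : j ≠ k) : ee k j = 0 := by simp [ee, h]

theorem dirOf_smul {α : ℤ} (hα : α = 1 ∨ α = -1) (k : Fin 4) : dirOf (α • ee k) = k := by
  have h : ∃ j, (α • ee k) j ≠ 0 := ⟨k, by rcases hα with rfl | rfl <;> simp [ee_same]⟩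
  rw [dirOf, dif_pos h]
  by_contra hne
  exact h.choose_spec (by rw [Pi.smul_apply, ee_ne hne, smul_zero])

def ND (F : Gp → Pt) (Q : Gp) : Prop :=
  F (Q + (1, 0)) ≠ F Q ∧ F (Q + (0, 1)) ≠ F Q ∧
    F (Q + (1, 1)) - F (Q + (0, 1)) = F (Q + (1, 0)) - F Q ∧
    ∀ k, F (Q + (1, 0)) k = F Q k ∨ F (Q + (0, 1)) k = F Q k

section shape
variable {F : Gp → Pt} {Q m : Gp}
  (hF : Shape (F Q) (F (Q + (1, 0))) (F (Q + (0, 1))) (F (Q + (1, 1))))
include hF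

theorem step_mid (h : GAdj (ctr Q) m) :
    IsStep (F (crn (lf (ctr Q) m)) - F (crn (rt (ctr Q) m))) := by
  obtain ⟨a, b⟩ := Q
  obtain ⟨s1, s2, s3, s4⟩ := shape_step hF
  simp only [Prod.mk_add_mk, add_zero] at s1 s2 s3 s4
  rcases mid_cases h with ⟨-, h1, h2⟩ | ⟨-, h1, h2⟩ | ⟨-, h1, h2⟩ | ⟨-, h1, h2⟩ <;>
    rw [h1, h2] <;> simp only [crn_oo, crn_oe, crn_eo, crn_ee]
  exacts [s4, isStep_sub s2, isStep_sub s3, s1]

theorem ref_deg (h : GAdj (ctr Q) m) (hn : ¬ ND F Q)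
    (hne : F (crn (lf (ctr Q) m)) ≠ F (crn (rt (ctr Q) m))) : ref F m = ref F (ctr Q) := by
  rw [ref_mid h]
  obtain ⟨a, b⟩ := Q
  have hz : ref F (ctr (a, b)) = _ := ref_oo F a b
  rw [hz]
  simp only [ND, Prod.mk_add_mk, add_zero] at hF hn
  have key : ∀ q00 q10 q01 q11 : Pt, Shape q00 q10 q01 q11 →
      ¬ (q10 ≠ q00 ∧ q01 ≠ q00 ∧ q11 - q01 = q10 - q00 ∧ ∀ k, q10 k = q00 k ∨ q01 k = q00 k) →
      ∀ x y, x ≠ y → ((x = q11 ∧ y = q10) ∨ (x = q00 ∧ y = q01) ∨ (x = q01 ∧ y = q11) ∨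
        (x = q10 ∧ y = q00)) →
      x + y + 1 = if q00 = q11 then q10 + q01 + 1 else q00 + q11 + 1 := by
    intro q00 q10 q01 q11 hs hn x y hxy hc
    rcases hs with ⟨u, v, -, -, huv, rfl, rfl, rfl⟩ | ⟨rfl, rfl, -⟩ | ⟨rfl, rfl, -⟩ |
      ⟨rfl, rfl, -⟩ | ⟨rfl, rfl, -⟩
    · have : u = 0 ∨ v = 0 := by
        by_contra hc'
        push Not at hc'
        refine hn ⟨by simpa using hc'.1, by simpa using hc'.2, by abel, fun k => ?_⟩
        simpa using huv k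
      rcases this with rfl | rfl <;>
        rcases hc with ⟨rfl, rfl⟩ | ⟨rfl, rfl⟩ | ⟨rfl, rfl⟩ | ⟨rfl, rfl⟩ <;>
        simp only [add_zero, ne_eq, not_true_eq_false] at hxy ⊢ <;> split_ifs <;> abel1
    all_goals
      rcases hc with ⟨rfl, rfl⟩ | ⟨rfl, rfl⟩ | ⟨rfl, rfl⟩ | ⟨rfl, rfl⟩ <;>
        first
        | exact absurd rfl hxy
        | (split_ifs with h1 <;> first | abel1 | exact absurd h1 hxy | exact absurd h1.symm hxy |
            exact absurd rfl h1)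
  refine key _ _ _ _ hF hn _ _ hne ?_
  rcases mid_cases h with ⟨-, h1, h2⟩ | ⟨-, h1, h2⟩ | ⟨-, h1, h2⟩ | ⟨-, h1, h2⟩ <;>
    rw [h1, h2] <;> simp [crn_oo, crn_oe, crn_eo, crn_ee]

theorem nd_data (hn : ND F Q) : ∃ k l, ∃ α β : ℤ, k ≠ l ∧ (α = 1 ∨ α = -1) ∧ (β = 1 ∨ β = -1) ∧
    F (Q + (1, 0)) - F Q = α • ee k ∧ F (Q + (0, 1)) - F Q = β • ee l ∧
    ref F (ctr Q) = F Q + F Q + α • ee k + β • ee l + 1 ∧
    ∀ m, GAdj (ctr Q) m →
      let x := m.1 - (ctr Q).1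
      let y := m.2 - (ctr Q).2
      ref F m = ref F (ctr Q) + (x * α) • ee k + (y * β) • ee l ∧
      F (crn (lf (ctr Q) m)) - F (crn (rt (ctr Q) m)) = (-y * α) • ee k + (x * β) • ee l := by
  obtain ⟨s1, s2, -, -⟩ := shape_step hF
  obtain ⟨n1, n2, n3, n4⟩ := hn
  obtain ⟨k, α, hα, e1⟩ := isStep_eq s1 (sub_ne_zero.2 n1)
  obtain ⟨l, β, hβ, e2⟩ := isStep_eq s2 (sub_ne_zero.2 n2)
  have hkl : k ≠ l := by
    rintro rfl
    have a1 := congrFun e1 k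
    have a2 := congrFun e2 k
    simp only [Pi.sub_apply, Pi.smul_apply, ee_same, smul_eq_mul] at a1 a2
    rcases n4 k with h | h <;> omega
  obtain ⟨a, b⟩ := Q
  simp only [Prod.mk_add_mk, add_zero] at e1 e2 n3
  have f1 : F (a + 1, b) = F (a, b) + α • ee k := by rw [← e1]; abel
  have f2 : F (a, b + 1) = F (a, b) + β • ee l := by rw [← e2]; abel
  have f3 : F (a + 1, b + 1) = F (a, b) + α • ee k + β • ee l := by
    rw [sub_eq_iff_eq_add, e1, f2] at n3; rw [n3]; abel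
  have hz : ref F (ctr (a, b)) = F (a, b) + F (a, b) + α • ee k + β • ee l + 1 := by
    have hz : ref F (ctr (a, b)) = _ := ref_oo F a b
    rw [hz, f1, f2, f3]; split_ifs <;> abel
  refine ⟨k, l, α, β, hkl, hα, hβ, by simpa using e1, by simpa using e2, hz, fun m h => ?_⟩
  rw [ref_mid h, hz]
  rcases mid_cases h with ⟨h0, h1, h2⟩ | ⟨h0, h1, h2⟩ | ⟨h0, h1, h2⟩ | ⟨h0, h1, h2⟩ <;>
    rw [h1, h2, h0] <;> simp only [crn_oo, crn_oe, crn_eo, crn_ee, f1, f2, f3, ctr] <;>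
    constructor <;> module

end shape

end Vale.Agent.P215Z.Cr
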